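import Vale.Agent.P246.Q32.Base
import Vale.Agent.P246.Q32.Cr
import Mathlib.NumberTheory.Real.Irrational

/-!
# Arithmetic of `ℤ[ζ_8]` and of its real subring
-/

set_option linter.all false

namespace Vale.Agent.P246.Q16

open Vale.Agent.P246 Vale.Agent.P246.Q24 Vale.Agent.P246.Gen Vale.Agent.P246.Q32

/-- `ℤ[ζ_8, j]` -/
abbrev G8 : Type := Dbl Z8 true

/-- the coefficient functional `coef(1) + coef(x)` -/
def TT (y : Z8) : ℤ := y.re.re + y.im.re

/-- the symmetric element `n0 + n1 (x + x⁻¹) = n0 + n1 √2` -/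
def kz (n0 n1 : ℤ) : Z8 := ⟨⟨n0, 0⟩, ⟨n1, -n1⟩⟩

theorem kz_mul (a0 a1 b0 b1 : ℤ) : kz a0 a1 * kz b0 b1 =
    kz (a0 * b0 + 2 * a1 * b1) (a0 * b1 + a1 * b0) := by
  ext <;> simp [kz] <;> ring

theorem kz_int (m : ℤ) : (m : Z8) = kz m 0 := by
  ext <;> simp [kz]

theorem kz_one : (1 : Z8) = kz 1 0 := by
  ext <;> simp [kz]

theorem kz_zero : (0 : Z8) = kz 0 0 := by
  ext <;> simp [kz]

theorem kz_inj {a0 a1 b0 b1 : ℤ} (h : kz a0 a1 = kz b0 b1) : a0 = b0 ∧ a1 = b1 :=
  ⟨congrArg (fun z : Z8 => z.re.re) h, congrArg (fun z : Z8 => z.im.re) h⟩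

theorem TT_kz (a0 a1 : ℤ) : TT (kz a0 a1) = a0 + a1 := rfl

theorem kz_conj (a0 a1 : ℤ) : conj (kz a0 a1) = kz a0 a1 := by
  ext <;> simp [kz]

theorem sym_kz {y : Z8} (h : conj y = y) : y = kz y.re.re y.im.re := by
  have h1 := congrArg (fun z : Z8 => z.re.im) h
  have h2 := congrArg (fun z : Z8 => z.im.im) h
  have h3 := congrArg (fun z : Z8 => z.im.re) h
  simp at h1 h2 h3
  ext <;> simp [kz] <;> omega

/-- `2` is not a square -/
theorem sq2 {p q : ℤ} (h : p * p = 2 * (q * q)) : p = 0 ∧ q = 0 := by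
  have key : q = 0 := by
    by_contra hq
    have h1 : Irrational (Real.sqrt 2) := irrational_sqrt_two
    apply h1
    have hq' : (q : ℝ) ≠ 0 := by exact_mod_cast hq
    have h2 : (p : ℝ) * p = 2 * (q * q) := by exact_mod_cast h
    have h3 : (|(p : ℝ) / q|) ^ 2 = 2 := by
      rw [sq_abs, div_pow, div_eq_iff (by positivity)]
      linarith [h2]
    have h4 : Real.sqrt 2 = |(p : ℝ) / q| := by
      rw [← h3]
      exact Real.sqrt_sq (abs_nonneg _)
    rw [h4]
    refine ⟨|(p : ℚ) / q|, ?_⟩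
    push_cast
    rfl
  subst key
  refine ⟨?_, rfl⟩
  have : p * p = 0 := by linarith
  exact mul_self_eq_zero.1 this

/-- a nonzero symmetric element divides a nonzero integer -/
theorem exists_cof {y : Z8} (h : conj y = y) (h0 : y ≠ 0) :
    ∃ (z : Z8) (m : ℤ), conj z = z ∧ m ≠ 0 ∧ y * z = (m : Z8) := by
  rw [sym_kz h] at h0 ⊢
  generalize y.re.re = n0 at *
  generalize y.im.re = n1 at *
  refine ⟨kz n0 (-n1), n0 * n0 - 2 * (n1 * n1), kz_conj _ _, ?_, ?_⟩
  · intro h1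
    obtain ⟨hp0, hq0⟩ := sq2 (p := n0) (q := n1) (by linarith)
    subst hp0 hq0
    exact h0 kz_zero.symm
  · rw [kz_mul, kz_int]
    congr 1 <;> ring

theorem TT_self (a : Z8) : 2 * TT (a * conj a) =
    (a.re.re + a.im.re) * (a.re.re + a.im.re) +
    (a.im.re + a.re.im) * (a.im.re + a.re.im) +
    (a.re.im + a.im.im) * (a.re.im + a.im.im) +
    (a.im.im - a.re.re) * (a.im.im - a.re.re) := by
  simp [TT]
  ring

theorem TT_self_nonneg (a : Z8) : 0 ≤ TT (a * conj a) := by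
  have h := TT_self a
  have h1 : ∀ t : ℤ, 0 ≤ t * t := fun t => mul_self_nonneg t
  have := h1 (a.re.re + a.im.re)
  have := h1 (a.im.re + a.re.im)
  have := h1 (a.re.im + a.im.im)
  have := h1 (a.im.im - a.re.re)
  linarith

theorem TT_self_zero {a : Z8} (h0 : TT (a * conj a) = 0) : a = 0 := by
  have h := TT_self a
  rw [h0] at h
  have h1 : ∀ t : ℤ, 0 ≤ t * t := fun t => mul_self_nonneg t
  have g1 := h1 (a.re.re + a.im.re)
  have g2 := h1 (a.im.re + a.re.im)
  have g3 := h1 (a.re.im + a.im.im)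
  have g4 := h1 (a.im.im - a.re.re)
  have k1 := mul_self_eq_zero.1 (by linarith : (a.re.re + a.im.re) * (a.re.re + a.im.re) = 0)
  have k2 := mul_self_eq_zero.1 (by linarith : (a.im.re + a.re.im) * (a.im.re + a.re.im) = 0)
  have k3 := mul_self_eq_zero.1 (by linarith : (a.re.im + a.im.im) * (a.re.im + a.im.im) = 0)
  have k4 := mul_self_eq_zero.1 (by linarith : (a.im.im - a.re.re) * (a.im.im - a.re.re) = 0)
  ext <;> simp <;> omega

theorem int_mul_zero {m : ℤ} (hm : m ≠ 0) {x : Z8} (h : (m : Z8) * x = 0) : x = 0 := by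
  have k1 := congrArg (fun z : Z8 => z.re.re) h
  have k2 := congrArg (fun z : Z8 => z.re.im) h
  have k3 := congrArg (fun z : Z8 => z.im.re) h
  have k4 := congrArg (fun z : Z8 => z.im.im) h
  simp [hm] at k1 k2 k3 k4
  ext <;> simp [*]

theorem sym_mul_zero {y x : Z8} (hy : conj y = y) (h0 : y ≠ 0) (h : y * x = 0) : x = 0 := by
  obtain ⟨z, m, h1, h2, h3⟩ := exists_cof hy h0
  apply int_mul_zero h2
  rw [← h3]
  linear_combination z * h

instance : NoZeroDivisors Z8 where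
  eq_zero_or_eq_zero_of_mul_eq_zero := by
    intro x y h
    by_cases hx : x = 0
    · exact Or.inl hx
    · right
      have h1 : x * conj x ≠ 0 := by
        intro h2
        apply hx
        apply TT_self_zero
        rw [h2]
        rfl
      have h3 : conj (x * conj x) = x * conj x := by rw [map_mul, conj_conj, mul_comm]
      apply sym_mul_zero h3 h1
      linear_combination (conj x) * h

instance : Nontrivial Z8 := ⟨0, 1, by decide +kernel⟩

theorem nrd_G8 (z : G8) : Dbl.nrd z = z.fst * conj z.fst + z.snd * conj z.snd := by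
  simp [Dbl.nrd]

theorem TT_add (x y : Z8) : TT (x + y) = TT x + TT y := by
  simp [TT]; ring

theorem TT_nrd_nonneg (z : G8) : 0 ≤ TT (Dbl.nrd z) := by
  rw [nrd_G8, TT_add]
  exact add_nonneg (TT_self_nonneg _) (TT_self_nonneg _)

theorem TT_nrd_zero {z : G8} (h : TT (Dbl.nrd z) = 0) : z = 0 := by
  rw [nrd_G8, TT_add] at h
  have h1 := TT_self_nonneg z.fst
  have h2 := TT_self_nonneg z.snd
  exact Dbl.ext (TT_self_zero (by linarith)) (TT_self_zero (by linarith))

theorem nrd_zero {z : G8} (h : Dbl.nrd z = 0) : z = 0 := by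
  apply TT_nrd_zero
  rw [h]
  rfl

theorem G8_dom {z w : G8} (h : z * w = 0) : z = 0 ∨ w = 0 := by
  have h1 : Dbl.nrd z * Dbl.nrd w = 0 := by
    rw [← Dbl.nrd_mul, h]
    simp [Dbl.nrd]
  rcases mul_eq_zero.1 h1 with h2 | h2
  · exact Or.inl (nrd_zero h2)
  · exact Or.inr (nrd_zero h2)

end Vale.Agent.P246.Q16
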