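import Vale.Agent.P246.Q16.US
import Vale.Agent.P246.Q32.Chi

/-!
# The obstruction character
-/

set_option linter.all false

namespace Vale.Agent.P246.Q16

open Vale.Agent.P246 Vale.Agent.P246.Q24 Vale.Agent.P246.Q32

/-- `x ↦ -1` -/
def aug4' (A : Type) [CommRing A] : R4 A 1 →+* A :=
  Qs.lift (Qs.lift (RingHom.id A) 1 (by simp)) (-1) (by simp [Qs.lift])

theorem chi_rS {D D' : S4} (hD : conj D = D) (h : D * D' = 1) : chi (rS D) = 0 := by
  have h1 : (aug4 ℤ D) * (aug4 ℤ D') = 1 := by rw [← map_mul, h, map_one]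
  have h2 : (aug4' ℤ D) * (aug4' ℤ D') = 1 := by rw [← map_mul, h, map_one]
  have h3 := Int.isUnit_iff.1 (IsUnit.of_mul_eq_one _ h1)
  have h4 := Int.isUnit_iff.1 (IsUnit.of_mul_eq_one _ h2)
  have e1 : aug4 ℤ D = (D.re.re + 1 * D.re.im) + 1 * (D.im.re + 1 * D.im.im) := rfl
  have e2 : aug4' ℤ D = (D.re.re + 1 * D.re.im) + (-1) * (D.im.re + 1 * D.im.im) := rfl
  rw [e1] at h3
  rw [e2] at h4
  have c1 := congrArg (fun z : S4 => z.im.re) hD
  simp only [Qs.conj_re, Qs.conj_im, conj_int, Qs.mul_re, Qs.mul_im, Qs.gen_re, Qs.gen_im] at c1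
  simp at c1
  have h5 : D.im.re = 0 := by omega
  have h6 : chi (rS D) = zF2 (D.im.re) := rfl
  rw [h6, h5, map_zero]

theorem chi_mul : ∀ x y : F4', conj x = x → conj y = y → aug4 F2 x = 1 → aug4 F2 y = 1 →
    chi (x * y) = chi x + chi y := by
  decide +kernel

theorem F2_one {x y : F2} (h : x * y = 1) : x = 1 := by revert x y; decide

theorem aug_unit {x y : F4'} (h : x * y = 1) : aug4 F2 x = 1 := by
  have h1 : (aug4 F2 x) * (aug4 F2 y) = 1 := by rw [← map_mul, h, map_one]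
  exact F2_one h1

end Vale.Agent.P246.Q16
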