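import Vale.Agent.P246.Q16.Glue
import Vale.Agent.P246.Q32.Cr
import Vale.Agent.P246.Gen.K

/-!
# The D(2) property for `Q_16`, given a generator of norm one
-/

set_option linter.all false

namespace Vale.Agent.P246.Q16

open Vale.Agent.P246 Vale.Agent.P246.Q24 Vale.Agent.P246.Q32 Vale.Agent.P246.Gen

section

variable {R : Type} [CommRing R] [Invo R] {i : Bool}

theorem big_inj {c d v0 v1 t : Dbl R i} (hv : D2 c d v0 v1 = 1) (h0 : t * v0 = 0)
    (h1 : t * v1 = 0) : t = 0 := by
  have e1 : Matrix.vecMul (vc 0 t) (big !![c, d; v0, v1]) = 0 := by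
    rw [vc_mul]
    simp only [zero_mul, zero_add, Matrix.of_apply, Matrix.cons_val', Matrix.cons_val_zero,
      Matrix.cons_val_one, Matrix.cons_val_fin_one, h0, h1]
    funext k
    rcases k with k | k <;> fin_cases k <;> rfl
  have e2 : Matrix.vecMul (Matrix.vecMul (vc 0 t) (big !![c, d; v0, v1]))
      (big !![c, d; v0, v1]).adjugate = vc 0 t := by
    rw [Matrix.vecMul_vecMul, Matrix.mul_adjugate, Matrix.vecMul_smul, Matrix.vecMul_one]
    have h3 : (big !![c, d; v0, v1]).det = 1 := hv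
    rw [h3, one_smul]
  rw [e1, Matrix.zero_vecMul] at e2
  have e3 : vc (0 : Dbl R i) 0 = vc 0 t := by
    rw [← e2]
    funext k
    rcases k with k | k <;> fin_cases k <;> rfl
  exact (vc_inj e3).2.symm

theorem ker_equiv {a b c d : Dbl R i} (h : c * a + d * b = 1) (v : LinearMap.ker (colR a b))
    (hv : D2 c d (v.1 0) (v.1 1) = 1) : ∃ e : LinearMap.ker (colR a b) ≃ₗ[Dbl R i] Dbl R i,
      ∀ w, D2 c d (w.1 0) (w.1 1) = Dbl.nrd (e w) := by
  have hv2 : v.1 0 * a + v.1 1 * b = 0 := v.2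
  let f : Dbl R i →ₗ[Dbl R i] LinearMap.ker (colR a b) := LinearMap.toSpanSingleton _ _ v
  have hf0 : ∀ t, (f t).1 0 = t * v.1 0 := fun t => rfl
  have hf1 : ∀ t, (f t).1 1 = t * v.1 1 := fun t => rfl
  have hb : Function.Bijective f := by
    constructor
    · rw [← LinearMap.ker_eq_bot, LinearMap.ker_eq_bot']
      intro t ht
      apply big_inj hv
      · rw [← hf0, ht]; rfl
      · rw [← hf1, ht]; rfl
    · intro w
      have hw : w.1 0 * a + w.1 1 * b = 0 := w.2
      obtain ⟨t, h1, h2⟩ := cramer_ker h hv2 hw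
      rw [hv, map_one, one_mul] at h1 h2
      refine ⟨t, ?_⟩
      apply Subtype.ext
      funext k
      fin_cases k
      · exact h1.symm
      · exact h2.symm
  refine ⟨(LinearEquiv.ofBijective f hb).symm, ?_⟩
  intro w
  obtain ⟨t, ht⟩ := (LinearEquiv.ofBijective f hb).surjective w
  rw [← ht, LinearEquiv.symm_apply_apply]
  have e0 : (((LinearEquiv.ofBijective f hb) t).1 0) = t * v.1 0 := rfl
  have e1 : (((LinearEquiv.ofBijective f hb) t).1 1) = t * v.1 1 := rfl
  rw [e0, e1, D2_smul, hv, mul_one]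

end

/-- every kernel has a generator of norm one -/
def ExistsOne : Prop := ∀ a b c d : Gam, c * a + d * b = 1 →
  ∃ w : LinearMap.ker (colR a b), Dt !![c, d; w.1 0, w.1 1] = 1

attribute [local irreducible] Dt Dbl.nrd

theorem iso_all (EX : ExistsOne) {a b c d a' b' c' d' : LL} (h : c * a + d * b = 1)
    (h' : c' * a' + d' * b' = 1) :
    Nonempty (LinearMap.ker (colR a b) ≃ₗ[LL] LinearMap.ker (colR a' b')) := by
  have k1 : Sq.q c * Sq.q a + Sq.q d * Sq.q b = 1 := by
    have h2 := congrArg Sq.q h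
    simpa only [map_add, map_mul, map_one] using h2
  have k2 : Sq.q c' * Sq.q a' + Sq.q d' * Sq.q b' = 1 := by
    have h2 := congrArg Sq.q h'
    simpa only [map_add, map_mul, map_one] using h2
  obtain ⟨v, hv⟩ := EX _ _ _ _ k1
  obtain ⟨v', hv'⟩ := EX _ _ _ _ k2
  obtain ⟨e, he⟩ := ker_equiv k1 v hv
  obtain ⟨e', he'⟩ := ker_equiv k2 v' hv'
  refine glue_main U.TR_S4 unit_split h h' (e.trans e'.symm) ?_
  intro w
  have h1 := he w
  have h2 := he' ((e.trans e'.symm) w)
  rw [LinearEquiv.trans_apply, LinearEquiv.apply_symm_apply] at h2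
  rw [LinearEquiv.trans_apply]
  exact h2.trans h1.symm

theorem main_of (EX : ExistsOne) : AlgebraicD2Property (QuaternionGroup 4) := by
  apply d2_of 4
  intro a b c d h
  exact realized_std 4 (iso_all EX h (c' := 1) (d' := 0) (by rw [one_mul, zero_mul, add_zero]))

end Vale.Agent.P246.Q16
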