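import Vale.Agent.P246.Q16.H2G
import Vale.Agent.P246.Gen.K

/-!
# Kernels of unimodular columns over `ℤ[ζ_8, j]` contain a vector of form value one
-/

set_option linter.all false

namespace Vale.Agent.P246.Q16

open Vale.Agent.P246 Vale.Agent.P246.Q24 Vale.Agent.P246.Gen Vale.Agent.P246.Q32

/-- augmentation modulo two -/
def au : Z8 →+* F2 where
  toFun z := zF2 (z.re.re + z.re.im + z.im.re + z.im.im)
  map_one' := by decide
  map_zero' := by decide
  map_add' x y := by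
    rw [← map_add]
    congr 1
    simp
    ring
  map_mul' x y := by
    have h2 : (2 : F2) = 0 := by decide
    simp only [Qs.mul_re, Qs.mul_im, map_add, map_mul, Qs.gen_re, Qs.gen_im, Qs.add_re, Qs.add_im,
      map_neg, map_one, map_zero]
    linear_combination (-(zF2 x.re.im * zF2 y.re.im) - zF2 x.im.re * zF2 y.im.im -
      zF2 x.im.im * zF2 y.im.re - zF2 x.im.im * zF2 y.im.im - zF2 x.re.im * zF2 y.im.im -
      zF2 y.re.im * zF2 x.im.im) * h2

theorem au_conj (z : Z8) : au (conj z) = conj (au z) := by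
  have h1 : ∀ t : F2, -t = t := by decide
  change zF2 _ = zF2 _
  simp only [map_add, Qs.conj_re, Qs.conj_im, Qs.mul_re, Qs.mul_im, map_mul, map_neg, Qs.gen_re,
    Qs.gen_im, map_one, map_zero, h1, conj_int]
  ring

theorem au_kz (m0 m1 : ℤ) : au (kz m0 m1) = zF2 m0 := by
  change zF2 _ = _
  congr 1
  simp [kz]

/-- the sum of the coordinates -/
def sm : Dbl F2 true →+* F2 where
  toFun x := x.fst + x.snd
  map_one' := by decide
  map_zero' := by decide
  map_add' := by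
    intro x y
    simp
    ring
  map_mul' := by decide

theorem nrd_sm : ∀ x : Dbl F2 true, Dbl.nrd x = sm x := by decide

/-- augmentation modulo two -/
def eA : G8 →+* F2 := sm.comp (Dbl.map au au_conj)

theorem au_Dt (M : Matrix (Fin 2) (Fin 2) G8) :
    au (Dt M) = eA (M 0 0) * eA (M 1 1) - eA (M 0 1) * eA (M 1 0) := by
  rw [← Dt_map au au_conj M, Dt_comm' (fun _ => rfl), nrd_sm, map_sub, map_mul, map_mul]
  rfl

theorem exists_lift (t : F2) : ∃ p : G8, eA p = t := by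
  by_cases h : t = 0
  · exact ⟨0, by rw [map_zero, h]⟩
  · refine ⟨1, ?_⟩
    rw [map_one]
    revert t
    decide

attribute [local irreducible] Dt Dbl.nrd D2

/-- a vector with odd form value -/
theorem exists_odd {a b c d : G8} (h : c * a + d * b = 1) :
    ∃ v : Kr a b, au (hh c d v.1) = 1 := by
  obtain ⟨p, hp⟩ := exists_lift (eA b)
  obtain ⟨q, hq⟩ := exists_lift (eA a)
  obtain ⟨s, w, h1, h2⟩ := exists_split h p q
  have hs : s = p * a + q * b := by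
    have h3 := Kr_eq w
    have h4 : p * a + q * b = (w.1 0 * a + w.1 1 * b) + s * (c * a + d * b) := by
      rw [h1, h2]
      noncomm_ring
    rw [h4, h3, h, mul_one, zero_add]
  have h2' : ∀ t : F2, t + t = 0 := by decide
  have hes : eA s = 0 := by
    rw [hs, map_add, map_mul, map_mul, hp, hq, mul_comm]
    exact h2' _
  refine ⟨w, ?_⟩
  have e0 : eA (w.1 0) = eA b := by
    rw [← hp, h1, map_add, map_mul, hes, zero_mul, add_zero]
  have e1 : eA (w.1 1) = eA a := by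
    rw [← hq, h2, map_add, map_mul, hes, zero_mul, add_zero]
  have h5 : eA c * eA a + eA d * eA b = 1 := by
    rw [← map_mul, ← map_mul, ← map_add, h, map_one]
  have h6 : ∀ t : F2, -t = t := by decide
  change au (Dt !![c, d; w.1 0, w.1 1]) = 1
  rw [au_Dt]
  change eA c * eA (w.1 1) - eA d * eA (w.1 0) = 1
  rw [e0, e1, sub_eq_add_neg, h6]
  exact h5

/-- `1 + x` -/
def E : G8 := ⟨⟨⟨1, 0⟩, ⟨1, 0⟩⟩, 0⟩
/-- `-j` -/
def mj : G8 := ⟨0, -1⟩

theorem nrd_E : Dbl.nrd E = kz 2 1 := by decide +kernel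

theorem dvd_sqrt2 {p : Z8} (h0 : Even (p.re.re + p.re.im)) (h1 : Even (p.im.re + p.im.im)) :
    ∃ s : Z8, kz 0 1 * s = p := by
  obtain ⟨u, hu⟩ := h0
  obtain ⟨v, hv⟩ := h1
  refine ⟨⟨⟨v - p.im.im, v⟩, ⟨u, p.re.im - u⟩⟩, ?_⟩
  ext <;> simp [kz] <;> linarith

theorem case1 {t : G8} (h0 : Odd (t.fst.re.re + t.fst.re.im)) (h1 : Odd (t.fst.im.re + t.fst.im.im))
    (h2 : Even (t.snd.re.re + t.snd.re.im)) (h3 : Even (t.snd.im.re + t.snd.im.im)) :
    ∃ s : G8, t + s * Dbl.C (kz 2 (-1)) = E := by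
  have g0 : Even ((E.fst - t.fst).re.re + (E.fst - t.fst).re.im) := by
    have : (E.fst - t.fst).re.re + (E.fst - t.fst).re.im =
      1 - (t.fst.re.re + t.fst.re.im) := by
      simp [E]
      ring
    rw [this]
    exact odd_one.sub_odd h0
  have g1 : Even ((E.fst - t.fst).im.re + (E.fst - t.fst).im.im) := by
    have : (E.fst - t.fst).im.re + (E.fst - t.fst).im.im =
      1 - (t.fst.im.re + t.fst.im.im) := by
      simp [E]
      ring
    rw [this]
    exact odd_one.sub_odd h1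
  obtain ⟨s, hs⟩ := dvd_sqrt2 g0 g1
  have g2 : Even ((-t.snd).re.re + (-t.snd).re.im) := by
    have : (-t.snd).re.re + (-t.snd).re.im = -(t.snd.re.re + t.snd.re.im) := by
      rw [Qs.neg_re, Qs.neg_re, Qs.neg_im]
      ring
    rw [this]
    exact h2.neg
  have g3 : Even ((-t.snd).im.re + (-t.snd).im.im) := by
    have : (-t.snd).im.re + (-t.snd).im.im = -(t.snd.im.re + t.snd.im.im) := by
      rw [Qs.neg_im, Qs.neg_re, Qs.neg_im]
      ring
    rw [this]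
    exact h3.neg
  obtain ⟨s', hs'⟩ := dvd_sqrt2 g2 g3
  have hk : kz 0 1 = kz 1 1 * kz 2 (-1) := by decide +kernel
  refine ⟨Dbl.C (kz 1 1) * ⟨s, s'⟩, ?_⟩
  rw [mul_assoc, ← C_comm (kz_conj 2 (-1)) (⟨s, s'⟩ : G8), ← mul_assoc, ← map_mul, ← hk]
  apply Dbl.ext
  · simp [hs]
  · simp [hs', E]

theorem par_key {m0 m1 p0 p1 p2 p3 q0 q1 q2 q3 : ℤ} (hm : Odd m0)
    (e0 : 2 * m0 + -(2 * m1) = p0 * p0 + p2 * p2 + (p3 * p3 + p1 * p1) +
      (q0 * q0 + q2 * q2 + (q3 * q3 + q1 * q1)))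
    (e1 : 2 * m1 + -m0 = -(p0 * p3) + p2 * p1 + (p1 * p0 + p3 * p2) +
      (-(q0 * q3) + q2 * q1 + (q1 * q0 + q3 * q2))) :
    (Odd (p0 + p2) ∧ Odd (p1 + p3) ∧ Even (q0 + q2) ∧ Even (q1 + q3)) ∨
      (Even (p0 + p2) ∧ Even (p1 + p3) ∧ Odd (q0 + q2) ∧ Odd (q1 + q3)) := by
  have hA : Even ((p0 + p2) * (p0 + p2) + (p1 + p3) * (p1 + p3) + (q0 + q2) * (q0 + q2) +
      (q1 + q3) * (q1 + q3)) := ⟨m0 - m1 + p0 * p2 + p1 * p3 + q0 * q2 + q1 * q3, by
        linear_combination -e0⟩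
  have hB : Odd ((p0 + p2) * (p1 + p3) + (q0 + q2) * (q1 + q3)) := by
    obtain ⟨k, hk⟩ := hm
    exact ⟨m1 - k - 1 + p0 * p3 + q0 * q3, by linear_combination -e1 - hk⟩
  generalize p0 + p2 = α at *
  generalize p1 + p3 = β at *
  generalize q0 + q2 = γ at *
  generalize q1 + q3 = δ at *
  rw [← Int.not_even_iff_odd] at hB ⊢
  simp only [← Int.not_even_iff_odd, Int.even_add, Int.even_mul, or_self] at hA hB ⊢
  tauto

theorem parity {t : G8} {m0 m1 : ℤ} (hm : Odd m0) (h : kz 2 (-1) * kz m0 m1 = Dbl.nrd t) :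
    ∃ u s : G8, u * t + s * Dbl.C (kz 2 (-1)) = E := by
  rw [nrd_G8, kz_mul] at h
  have e0 := congrArg (fun z : Z8 => z.re.re) h
  have e1 := congrArg (fun z : Z8 => z.im.re) h
  simp [kz] at e0 e1
  obtain ⟨⟨⟨p0, p2⟩, ⟨p1, p3⟩⟩, ⟨⟨q0, q2⟩, ⟨q1, q3⟩⟩⟩ := t
  simp only at e0 e1
  have key : (Odd (p0 + p2) ∧ Odd (p1 + p3) ∧ Even (q0 + q2) ∧ Even (q1 + q3)) ∨
      (Even (p0 + p2) ∧ Even (p1 + p3) ∧ Odd (q0 + q2) ∧ Odd (q1 + q3)) := by
    exact par_key hm e0 e1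
  rcases key with ⟨k0, k1, k2, k3⟩ | ⟨k0, k1, k2, k3⟩
  · obtain ⟨s, hs⟩ := case1 (t := ⟨⟨⟨p0, p2⟩, ⟨p1, p3⟩⟩, ⟨⟨q0, q2⟩, ⟨q1, q3⟩⟩⟩) k0 k1 k2 k3
    exact ⟨1, s, by rw [one_mul]; exact hs⟩
  · have h1 : mj * (⟨⟨⟨p0, p2⟩, ⟨p1, p3⟩⟩, ⟨⟨q0, q2⟩, ⟨q1, q3⟩⟩⟩ : G8) =
        ⟨⟨⟨q0, -q2⟩, ⟨-q3, -q1⟩⟩, ⟨⟨-p0, p2⟩, ⟨p3, p1⟩⟩⟩ := by
      apply Dbl.ext
      · ext <;> simp [mj]
      · ext <;> simp [mj]
    obtain ⟨s, hs⟩ := case1 (t := ⟨⟨⟨q0, -q2⟩, ⟨-q3, -q1⟩⟩, ⟨⟨-p0, p2⟩, ⟨p3, p1⟩⟩⟩)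
      (by
        change Odd (q0 + -q2)
        have : q0 + -q2 = (q0 + q2) - 2 * q2 := by ring
        rw [this]
        exact k2.sub_even (even_two_mul q2))
      (by
        change Odd (-q3 + -q1)
        have : -q3 + -q1 = -(q1 + q3) := by ring
        rw [this]
        exact k3.neg)
      (by
        change Even (-p0 + p2)
        have : -p0 + p2 = (p0 + p2) - 2 * p0 := by ring
        rw [this]
        exact k0.sub (even_two_mul p0))
      (by
        change Even (p3 + p1)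
        rw [add_comm]
        exact k1)
    refine ⟨mj, s, ?_⟩
    rw [h1]
    exact hs

theorem nrd_C8 (m : Z8) : Dbl.nrd (Dbl.C m : G8) = m * conj m := nrd_C' m

/-- positivity against a unit square -/
theorem TT_mul_pos {a b c d : G8} (h : c * a + d * b = 1) {w : Kr a b} (hw : w ≠ 0)
    (m0 m1 : ℤ) (hm : kz m0 m1 ≠ 0) : 0 < TT (kz m0 m1 * kz m0 m1 * hh c d w.1) := by
  have h1 : (Dbl.C (kz m0 m1) : G8) • w ≠ 0 := smul_ne (fun h2 => hm (congrArg Dbl.fst h2)) hw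
  have h2 := TT_pos h h1
  rw [hh_smul, nrd_C8, kz_conj] at h2
  exact h2

theorem root_list {a b c d : G8} (h : c * a + d * b = 1) {w : Kr a b} (hw : w ≠ 0)
    (hT : TT (hh c d w.1) = 1) : hh c d w.1 = kz 1 0 ∨ hh c d w.1 = kz 2 (-1) ∨
      hh c d w.1 = kz 3 (-2) := by
  obtain ⟨n0, n1, hn⟩ := hh_kz c d w
  have h1 := TT_mul_pos h hw 1 1 (by decide +kernel)
  have h2 := TT_mul_pos h hw 1 (-1) (by decide +kernel)
  rw [hn] at h1 h2 hT ⊢
  rw [kz_mul, kz_mul, TT_kz] at h1 h2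
  rw [TT_kz] at hT
  have h3 : n1 ≤ 0 := by linarith
  have h4 : -2 ≤ n1 := by linarith
  have h5 : n0 = 1 - n1 := by linarith
  subst h5
  obtain rfl | rfl | rfl : n1 = 0 ∨ n1 = -1 ∨ n1 = -2 := by omega
  · left; norm_num
  · right; left; norm_num
  · right; right; norm_num

theorem kz_21 : kz 2 (-1) * kz 3 2 = kz 2 1 := by decide +kernel

theorem kz_unit : kz 1 (-1) * conj (kz 1 (-1)) * kz 3 2 = 1 := by decide +kernel

theorem kz_unit' : kz 1 1 * conj (kz 1 1) * kz 3 (-2) = 1 := by decide +kernel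

/-- every kernel of a unimodular column contains a vector of form value one -/
theorem exists_one {a b c d : G8} (h : c * a + d * b = 1) :
    ∃ w : LinearMap.ker (colR a b), Dt !![c, d; w.1 0, w.1 1] = 1 := by
  obtain ⟨w, hw1⟩ := exists_root h
  have hw : w ≠ 0 := by
    rintro rfl
    rw [hh_zero] at hw1
    exact absurd hw1 (by decide +kernel)
  rcases root_list h hw hw1 with hy | hy | hy
  · exact ⟨w, by rw [kz_one]; exact hy⟩
  · obtain ⟨v, hv⟩ := exists_odd h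
    obtain ⟨t, ht1, ht2⟩ := Kr_cramer h w v
    have ht3 := ht2 hw
    obtain ⟨m0, m1, hm⟩ := hh_kz c d v
    rw [hm, au_kz] at hv
    have hodd : Odd m0 := by
      rw [← Int.not_even_iff_odd]
      intro he
      have h0 : zF2 m0 = 0 := by
        obtain ⟨k, rfl⟩ := he
        rw [map_add]
        have h2' : ∀ t : F2, t + t = 0 := by decide
        exact h2' _
      rw [h0] at hv
      exact absurd hv (by decide)
    rw [hy, hm] at ht3
    obtain ⟨u, s, hus⟩ := parity hodd ht3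
    have e1 : (Dbl.C (kz 2 (-1)) : G8) • (u • v + s • w) = E • w := by
      rw [← hus, smul_add, smul_smul, smul_smul, C_comm (kz_conj 2 (-1)) u,
        C_comm (kz_conj 2 (-1)) s, mul_smul, ← hy, ht1, smul_smul, add_smul]
    have e2 := congrArg (fun z : Kr a b => hh c d z.1) e1
    simp only [hh_smul] at e2
    rw [nrd_C8, kz_conj, nrd_E, hy, mul_assoc, mul_comm (kz 2 1), ← kz_21] at e2
    have hne : kz 2 (-1) ≠ 0 := by decide +kernel
    have e3 := mul_left_cancel₀ hne (mul_left_cancel₀ hne e2)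
    refine ⟨(Dbl.C (kz 1 (-1)) : G8) • (u • v + s • w), ?_⟩
    change hh c d _ = 1
    rw [hh_smul, nrd_C8, e3]
    exact kz_unit
  · refine ⟨(Dbl.C (kz 1 1) : G8) • w, ?_⟩
    change hh c d _ = 1
    rw [hh_smul, nrd_C8, hy]
    exact kz_unit'

end Vale.Agent.P246.Q16
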