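import Vale.Agent.P246.Q16.Fin
import Vale.Agent.P246.Q16.TRG

/-!
# The D(2) property for `Q_16` (algebraic form)
-/

set_option linter.all false

namespace Vale.Agent.P246.Q16

open Vale.Agent.P246

theorem main : AlgebraicD2Property (QuaternionGroup 4) :=
  main_of fun a b c d h => exists_one h

end Vale.Agent.P246.Q16
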