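import Vale.Agent.P246.Q16.Proj
import Vale.Agent.P246.Q32.Cr
import Vale.Agent.P246.Q32.Chi

/-!
# From a vector of norm `2 + √2` to a vector of norm one
-/

set_option linter.all false

namespace Vale.Agent.P246.Q16

open Vale.Agent.P246 Vale.Agent.P246.Q24 Vale.Agent.P246.Q32 Vale.Agent.P246.Gen

/-- `2 + √2` -/
def yy : Z8 := ⟨⟨2, 0⟩, ⟨1, -1⟩⟩
/-- `2 - √2` -/
def yy' : Z8 := ⟨⟨2, 0⟩, ⟨-1, 1⟩⟩

theorem yy_mul : yy * yy' = 2 := by decide +kernel
theorem yy_conj : conj yy = yy := by decide +kernel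

/-- `1 + x` -/
def px : Gam := ⟨⟨⟨1, 0⟩, ⟨1, 0⟩⟩, 0⟩

theorem nrd_px : Dbl.nrd px = yy := by decide +kernel

/-- augmentation -/
def eF : F4' →+* F2 := aug4 F2

theorem eF_conj (z : F4') : eF (conj z) = conj (eF z) := by
  revert z; decide +kernel

/-- the augmentation of `𝔽_2[D_8]` onto `𝔽_2[y]` -/
def eA : AA →+* Dbl F2 false := Dbl.map eF eF_conj

theorem Dt_small : ∀ x y z w : Dbl F2 false, Dt !![x, y; z, w] =
    (x.fst + x.snd) * (w.fst + w.snd) + (y.fst + y.snd) * (z.fst + z.snd) := by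
  decide +kernel

/-- `x⁻¹ (p0 + p1 x)` -/
def dv1 (z : F4') : F4' := ⟨⟨z.im.re, 0⟩, ⟨0, z.re.re⟩⟩

/-- division by `√2` -/
def dv (z : AA) : AA := ⟨dv1 z.fst, dv1 z.snd⟩

theorem key_fin : ∀ (T : AA) (H : F4'), conj H = H → eF H = 1 → Dbl.nrd T = rZ yy * H →
    ∃ δ : F2, (⟨⟨⟨1 + δ, 0⟩, 0⟩, ⟨⟨δ, 0⟩, 0⟩⟩ : AA) * T +
      dv (⟨⟨⟨1 + δ, 0⟩, 0⟩, ⟨⟨δ, 0⟩, 0⟩⟩ * T + bG px) * Dbl.C (rZ yy) = bG px := by
  decide +kernel

theorem key_fin' (T : AA) (H : F4') (h1 : conj H = H) (h2 : eF H = 1)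
    (h3 : Dbl.nrd T = rZ yy * H) : ∃ U S : AA, U * T + S * Dbl.C (rZ yy) = bG px := by
  obtain ⟨δ, h⟩ := key_fin T H h1 h2 h3
  exact ⟨_, _, h⟩

theorem Z8_two {x y : Z8} (h : 2 * x = 2 * y) : x = y := by
  have k1 := congrArg (fun z : Z8 => z.re.re) h
  have k2 := congrArg (fun z : Z8 => z.re.im) h
  have k3 := congrArg (fun z : Z8 => z.im.re) h
  have k4 := congrArg (fun z : Z8 => z.im.im) h
  simp at k1 k2 k3 k4
  ext <;> assumption

theorem yy_cancel {x z : Z8} (h : yy * x = yy * z) : x = z := by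
  apply Z8_two
  rw [← yy_mul]
  linear_combination yy' * h

theorem C_yy_comm (z : Gam) : Dbl.C yy * z = z * Dbl.C yy := by
  ext <;> simp [yy] <;> ring

theorem C_two (z : Gam) : Dbl.C (2 : Z8) * z = z + z := by
  rw [map_ofNat]
  exact two_mul z

theorem bG_C (h : Z8) : bG (Dbl.C h) = Dbl.C (rZ h) := rfl

theorem Dt_bG' (M : Matrix (Fin 2) (Fin 2) Gam) : Dt (bG.mapMatrix M) = rZ (Dt M) :=
  Dt_red2 _ rZ rZ_conj M

theorem Dt_eA (M : Matrix (Fin 2) (Fin 2) AA) : Dt (eA.mapMatrix M) = eF (Dt M) :=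
  Dt_map eF eF_conj M

theorem eF_Dt (M : Matrix (Fin 2) (Fin 2) Gam) : eF (rZ (Dt M)) =
    ((eA (bG (M 0 0))).fst + (eA (bG (M 0 0))).snd) * ((eA (bG (M 1 1))).fst + (eA (bG (M 1 1))).snd) +
    ((eA (bG (M 0 1))).fst + (eA (bG (M 0 1))).snd) *
      ((eA (bG (M 1 0))).fst + (eA (bG (M 1 0))).snd) := by
  rw [← Dt_small, ← Dt_bG', ← Dt_eA]
  congr 1
  apply Matrix.ext
  intro i j
  fin_cases i <;> fin_cases j <;> rfl

/-- the total augmentation -/
def eT : Gam →+* F2 where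
  toFun z := (eA (bG z)).fst + (eA (bG z)).snd
  map_one' := by decide +kernel
  map_zero' := by decide +kernel
  map_add' x y := by rw [map_add, map_add, Dbl.add_fst, Dbl.add_snd]; ring
  map_mul' x y := by
    rw [map_mul, map_mul]
    generalize eA (bG x) = p
    generalize eA (bG y) = q
    revert p q
    decide +kernel

theorem nrd_bG (z : Gam) : Dbl.nrd (bG z) = rZ (Dbl.nrd z) := by
  have h1 : ∀ x y : F4', x - y = x + y := by decide +kernel
  have h2 : (bG z).fst = rZ z.fst := rfl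
  have h3 : (bG z).snd = rZ z.snd := rfl
  rw [Dbl.nrd, Dbl.nrd, h2, h3, map_sub, map_mul, map_mul, map_mul, rZ_conj, rZ_conj, sg_false,
    sg_true, map_neg, map_one, one_mul, neg_mul, one_mul, sub_neg_eq_add, h1]

theorem eT_apply (z : Gam) : eT z = (eA (bG z)).fst + (eA (bG z)).snd := rfl

attribute [local irreducible] Dt Dbl.nrd eA bG eF rZ

theorem eF_D2 (c d v0 v1 : Gam) : eF (rZ (D2 c d v0 v1)) = eT c * eT v1 + eT d * eT v0 := by
  rw [D2, eF_Dt, eT_apply, eT_apply, eT_apply, eT_apply]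
  rfl

/-- an element of the kernel with odd norm -/
theorem exists_odd {a b c d : Gam} (h : c * a + d * b = 1) :
    ∃ v0 v1 : Gam, v0 * a + v1 * b = 0 ∧ eF (rZ (D2 c d v0 v1)) = 1 := by
  refine ⟨b - (b * a + a * b) * c, a - (b * a + a * b) * d, ?_, ?_⟩
  · have : (b - (b * a + a * b) * c) * a + (a - (b * a + a * b) * d) * b =
      (b * a + a * b) - (b * a + a * b) * (c * a + d * b) := by noncomm_ring
    rw [this, h, mul_one, sub_self]
  · have h2 : ∀ z : F2, z + z = 0 := by decide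
    have h3 : eT (b * a + a * b) = 0 := by
      rw [map_add, map_mul, map_mul, mul_comm (eT b), h2]
    rw [eF_D2, map_sub, map_sub, map_mul, map_mul, h3, zero_mul, zero_mul, sub_zero, sub_zero,
      ← map_mul, ← map_mul, ← map_add, h, map_one]

theorem case_y {a b c d : Gam} (h : c * a + d * b = 1) {w0 w1 : Gam}
    (hw : w0 * a + w1 * b = 0) (hy : D2 c d w0 w1 = yy) :
    ∃ v0 v1 : Gam, v0 * a + v1 * b = 0 ∧ D2 c d v0 v1 = 1 := by
  obtain ⟨v0, v1, hv, ho⟩ := exists_odd h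
  obtain ⟨t, t0, t1⟩ := cramer_ker h hw hv
  rw [hy] at t0 t1
  have n1 : D2 c d (Dbl.C yy * v0) (Dbl.C yy * v1) = D2 c d (t * w0) (t * w1) := by rw [t0, t1]
  rw [D2_smul, D2_smul, hy, Dbl.nrd_C, yy_conj] at n1
  have n2 : Dbl.nrd t = yy * D2 c d v0 v1 := by
    apply yy_cancel
    linear_combination -n1
  have n3 : Dbl.nrd (bG t) = rZ yy * rZ (D2 c d v0 v1) := by
    rw [← map_mul, ← n2]
    exact nrd_bG t
  obtain ⟨U, S, hUS⟩ := key_fin' (bG t) (rZ (D2 c d v0 v1)) (by rw [← rZ_conj, D2_conj]) ho n3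
  obtain ⟨u, rfl⟩ := bG_surj U
  obtain ⟨s, rfl⟩ := bG_surj S
  rw [← bG_C, ← map_mul, ← map_mul, ← map_add] at hUS
  obtain ⟨m, hm⟩ := bG_ker (m := u * t + s * Dbl.C yy - px) (by rw [map_sub, hUS, sub_self])
  have e1 : u * t + (s - m * Dbl.C yy') * Dbl.C yy = px := by
    have e2 : m * Dbl.C yy' * Dbl.C yy = m + m := by
      rw [mul_assoc, ← map_mul, mul_comm yy', yy_mul, map_ofNat]
      exact mul_two m
    rw [sub_mul, e2, ← hm]
    abel
  obtain ⟨s', hs'⟩ : ∃ s', s' = s - m * Dbl.C yy' := ⟨_, rfl⟩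
  rw [← hs'] at e1
  refine ⟨u * v0 + s' * w0, u * v1 + s' * w1, ?_, ?_⟩
  · have : (u * v0 + s' * w0) * a + (u * v1 + s' * w1) * b =
      u * (v0 * a + v1 * b) + s' * (w0 * a + w1 * b) := by noncomm_ring
    rw [this, hv, hw, mul_zero, mul_zero, add_zero]
  · have k : ∀ x z : Gam, Dbl.C yy * x = t * z → Dbl.C yy * (u * x + s' * z) = px * z := by
      intro x z hx
      rw [mul_add, ← mul_assoc, C_yy_comm, mul_assoc, hx, ← mul_assoc (Dbl.C yy) s', C_yy_comm s',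
        ← mul_assoc, ← add_mul, e1]
    have n4 : D2 c d (Dbl.C yy * (u * v0 + s' * w0)) (Dbl.C yy * (u * v1 + s' * w1)) =
        D2 c d (px * w0) (px * w1) := by rw [k _ _ t0, k _ _ t1]
    rw [D2_smul, D2_smul, hy, Dbl.nrd_C, yy_conj, nrd_px] at n4
    apply yy_cancel
    apply yy_cancel
    linear_combination n4

end Vale.Agent.P246.Q16
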