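import Vale.Agent.P246.Q16.Proj
import Vale.Agent.P246.Q32.UTR

/-!
# Units of `𝔽_2[D_8]` with trivial obstruction
-/

set_option linter.all false

namespace Vale.Agent.P246.Q16

open Vale.Agent.P246 Vale.Agent.P246.Q24 Vale.Agent.P246.Q32

/-- the coefficient of `x` -/
def chi (z : F4') : F2 := z.im.re

/-- the element of `ℤ[D_8]` with given coordinates -/
def e8 (a b c d a' b' c' d' : ℤ) : PP := ⟨⟨⟨a, c⟩, ⟨b, d⟩⟩, ⟨⟨a', c'⟩, ⟨b', d'⟩⟩⟩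

/-- units of `ℤ[D_8]` with their inverses -/
def uL : List (PP × PP) :=
  [
   (e8 (-1) 0 0 0 0 0 0 0, e8 (-1) 0 0 0 0 0 0 0),
   (e8 0 (-1) 0 0 0 0 0 0, e8 0 0 0 (-1) 0 0 0 0),
   (e8 0 0 (-1) 0 0 0 0 0, e8 0 0 (-1) 0 0 0 0 0),
   (e8 0 0 0 (-1) 0 0 0 0, e8 0 (-1) 0 0 0 0 0 0),
   (e8 0 0 0 0 (-1) 0 0 0, e8 0 0 0 0 (-1) 0 0 0),
   (e8 0 0 0 0 0 (-1) 0 0, e8 0 0 0 0 0 (-1) 0 0),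
   (e8 0 0 0 0 0 0 (-1) 0, e8 0 0 0 0 0 0 (-1) 0),
   (e8 0 0 0 0 0 0 0 (-1), e8 0 0 0 0 0 0 0 (-1)),
   (e8 (-1) (-1) 0 1 (-1) 0 1 0, e8 (-1) 1 0 (-1) 1 0 (-1) 0),
   (e8 (-1) (-1) 0 1 0 (-1) 0 1, e8 (-1) 1 0 (-1) 0 1 0 (-1)),
   (e8 (-1) (-1) 1 0 (-1) 0 1 0, e8 (-1) 0 1 (-1) 1 0 (-1) 0),
   (e8 (-1) (-1) 1 0 0 (-1) 0 1, e8 (-1) 0 1 (-1) 0 1 0 (-1)),
   (e8 (-1) 0 1 (-1) (-1) 0 1 0, e8 (-1) (-1) 1 0 1 0 (-1) 0),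
   (e8 (-1) 0 1 (-1) 0 (-1) 0 1, e8 (-1) (-1) 1 0 0 1 0 (-1)),
   (e8 (-1) 0 1 0 (-1) (-1) 0 1, e8 1 0 (-1) 0 (-1) (-1) 0 1),
   (e8 (-1) 0 1 0 (-1) (-1) 1 0, e8 1 0 (-1) 0 (-1) (-1) 1 0),
   (e8 (-1) 0 1 0 (-1) 0 1 (-1), e8 1 0 (-1) 0 (-1) 0 1 (-1)),
   (e8 (-1) 0 1 0 0 (-1) (-1) 1, e8 1 0 (-1) 0 0 (-1) (-1) 1),
   (e8 0 (-1) (-1) 1 (-1) 0 1 0, e8 0 1 (-1) (-1) 1 0 (-1) 0),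
   (e8 0 (-1) (-1) 1 0 (-1) 0 1, e8 0 1 (-1) (-1) 0 1 0 (-1)),
   (e8 0 (-1) 0 1 (-1) (-1) 0 1, e8 0 (-1) 0 1 (-1) (-1) 0 1),
   (e8 0 (-1) 0 1 (-1) (-1) 1 0, e8 0 (-1) 0 1 (-1) (-1) 1 0),
   (e8 0 (-1) 0 1 (-1) 0 1 (-1), e8 0 (-1) 0 1 (-1) 0 1 (-1)),
   (e8 0 (-1) 0 1 0 (-1) (-1) 1, e8 0 (-1) 0 1 0 (-1) (-1) 1),
   (e8 (-2) 0 1 0 (-1) (-1) 1 1, e8 (-2) 0 1 0 1 1 (-1) (-1)),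
   (e8 (-1) (-1) 1 1 (-2) 0 1 0, e8 1 (-1) (-1) 1 (-2) 0 1 0),
   (e8 (-1) (-1) 1 1 (-1) 0 2 0, e8 1 (-1) (-1) 1 (-1) 0 2 0),
   (e8 (-1) (-1) 1 1 0 (-2) 0 1, e8 1 (-1) (-1) 1 0 (-2) 0 1),
   (e8 (-1) (-1) 1 1 0 (-1) 0 2, e8 1 (-1) (-1) 1 0 (-1) 0 2),
   (e8 (-1) 0 2 0 (-1) (-1) 1 1, e8 (-1) 0 2 0 1 1 (-1) (-1)),
   (e8 0 (-2) 0 1 (-1) (-1) 1 1, e8 0 1 0 (-2) 1 1 (-1) (-1)),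
   (e8 0 (-1) 0 2 (-1) (-1) 1 1, e8 0 2 0 (-1) 1 1 (-1) (-1))]

theorem uL_spec : ∀ p ∈ uL, p.1 * p.2 = 1 ∧ p.2 * p.1 = 1 := by decide +kernel

/-- `1 + √2` -/
def hs : Z8 := ⟨⟨1, 0⟩, ⟨1, -1⟩⟩
/-- `√2 - 1` -/
def hs' : Z8 := ⟨⟨-1, 0⟩, ⟨1, -1⟩⟩

theorem hs_mul : hs * hs' = 1 := by decide +kernel
theorem hs_conj : conj hs = hs := by decide +kernel
theorem hs_conj' : conj hs' = hs' := by decide +kernel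

theorem uL_all : ∀ al : AA, U.augC al = 1 → chi (Dbl.nrd al) = 0 →
    ∃ p ∈ uL, al = aP p.1 ∨ al = aP p.1 * bG (Dbl.C hs) := by
  decide +kernel

/-- lifting of units -/
def UnitSplit : Prop := ∀ al al' : AA, al * al' = 1 → al' * al = 1 → chi (Dbl.nrd al) = 0 →
  ∃ (e e' : PP) (h h' : Z8), e * e' = 1 ∧ e' * e = 1 ∧ h * h' = 1 ∧ conj h = h ∧ conj h' = h' ∧
    al = aP e * bG (Dbl.C h)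

theorem unit_split : UnitSplit := by
  intro al al' h1 h2 h3
  have h4 : U.augC al = 1 := U.F2_unit _ (U.augC al') (by rw [← map_mul, h1, map_one])
  obtain ⟨p, hp, h5⟩ := uL_all al h4 h3
  obtain ⟨e1, e2⟩ := uL_spec p hp
  rcases h5 with h5 | h5
  · exact ⟨p.1, p.2, 1, 1, e1, e2, one_mul 1, map_one _, map_one _, by
      rw [map_one, map_one, mul_one]; exact h5⟩
  · exact ⟨p.1, p.2, hs, hs', e1, e2, hs_mul, hs_conj, hs_conj', h5⟩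

end Vale.Agent.P246.Q16
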